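import Vale.Agent.P201.Bd3.B4
import Vale.Agent.P201.Bd3.B3
import Vale.Agent.P201.Bd3.B1

/-!
Kaplansky's zero divisor conjecture is false over the field with two elements.
-/

namespace Vale.Agent.Results.P201.ZeroDivisors

/-- There is a group `G` in which the identity is the only element of finite order, and there are
nonzero elements `a`, `b` of the group algebra of `G` over the field with two elements with
`a * b = 0`. -/
theorem result : ∃ (G : Type) (_ : Group G), (∀ g : G, ∀ m : ℕ, 0 < m → g ^ m = 1 → g = 1) ∧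
    ∃ a b : MonoidAlgebra (ZMod 2) G, a ≠ 0 ∧ b ≠ 0 ∧ a * b = 0 := by
  obtain ⟨G, hG, htf, h⟩ := Vale.Agent.P194.M.main.{0} Vale.Agent.P201.S.stmtLoc
    Vale.Agent.P201.S.stmtGlob Vale.Agent.P201.S.stmtTor
  refine ⟨G, hG, htf, ?_⟩
  obtain ⟨a, b, hab, hba⟩ := h (ZMod 2)
  refine ⟨a, 1 - b * a, ?_, sub_ne_zero.2 (Ne.symm hba), ?_⟩
  · rintro rfl
    rw [zero_mul] at hab
    exact zero_ne_one hab
  · rw [mul_sub, mul_one, ← mul_assoc, hab, one_mul, sub_self]

end Vale.Agent.Results.P201.ZeroDivisors
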